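import Vale.Agent.P235.K5.H509.Tri
import Vale.Agent.P235.K5.H707.Tricho

/-!
# Line XC, row [X2]: a side with two vertices is contracted onto the triangle

`G` 3-connected, `S = {s 0, s 1, s 2}` three vertices, `D` a set of at least two vertices all whose
outer neighbours are in `S`: the rest of the graph with the triangle on `S` is a minor of `G`.
-/

set_option autoImplicit false

namespace Vale.Agent.P235.XC.H312

open SimpleGraph Vale.Agent.P235.H134 Vale.Agent.P235.H56 Vale.Agent.P235.K5.H509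
open Vale.Agent.P235.K5.H707 (Cn Heavy tricho)

variable {V : Type}

/-- a rooted triangle gives the triangle on the roots -/
theorem tri_root {G : SimpleGraph V} {s : Fin 3 → V} (hs : Function.Injective s) {C : Set V}
    {W : Fin 3 → Set V} (hconn : ∀ i, (G.induce ({s i} ∪ W i)).Connected)
    (hCW : ∀ i, Disjoint C (W i)) (hsW : ∀ i j, s j ∉ W i)
    (hWW : ∀ i j, i ≠ j → Disjoint (W i) (W j))
    (hadj : ∀ i j, i ≠ j → ∃ u ∈ ({s i} ∪ W i : Set V), ∃ v ∈ ({s j} ∪ W j : Set V), G.Adj u v) :
    IsMinor ((G ⊔ cliq (Set.range s)).induce (C ∪ Set.range s)) G := by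
  classical
  let ν : V → Set V := fun v => {p | p = v ∨ ∃ i, v = s i ∧ p ∈ W i}
  have hνs : ∀ i, ν (s i) = {s i} ∪ W i := by
    intro i
    ext p
    constructor
    · rintro (h | ⟨j, h, hp⟩)
      · exact Or.inl h
      · exact Or.inr ((hs h) ▸ hp)
    · rintro (h | h)
      · exact Or.inl h
      · exact Or.inr ⟨i, rfl, h⟩
  have hνo : ∀ v, v ∉ Set.range s → ν v = {v} := by
    intro v hv
    ext p
    constructor
    · rintro (h | ⟨j, h, hp⟩)
      · exact h
      · exact absurd ⟨j, h.symm⟩ hv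
    · intro h
      exact Or.inl h
  have hself : ∀ v, v ∈ ν v := fun v => Or.inl rfl
  have hoff : ∀ v ∈ C ∪ Set.range s, ∀ i, v ∉ W i := by
    rintro v (hv | ⟨j, rfl⟩) i
    · exact Set.disjoint_left.1 (hCW i) hv
    · exact hsW i j
  refine ⟨fun v => ν v.1, fun v => ?_, fun v w hvw => ?_, fun v w hvw => ?_⟩
  · show (G.induce (ν v.1)).Connected
    by_cases h1 : v.1 ∈ Set.range s
    · obtain ⟨i, hi⟩ := h1
      rw [← hi, hνs]
      exact hconn i
    · rw [hνo v.1 h1]
      exact conn_single G v.1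
  · show Disjoint (ν v.1) (ν w.1)
    have hne : v.1 ≠ w.1 := fun h => hvw (Subtype.ext h)
    rw [Set.disjoint_left]
    rintro p (hp | ⟨i, hi, hp⟩) (hq | ⟨j, hj, hq⟩)
    · exact hne (hp.symm.trans hq)
    · exact hoff v.1 v.2 j (hp ▸ hq)
    · exact hoff w.1 w.2 i (hq ▸ hp)
    · have hij : i ≠ j := fun h => hne (by rw [hi, hj, h])
      exact Set.disjoint_left.1 (hWW i j hij) hp hq
  · show ∃ p ∈ ν v.1, ∃ q ∈ ν w.1, G.Adj p q
    have hvw' : G.Adj v.1 w.1 ∨ (v.1 ≠ w.1 ∧ v.1 ∈ Set.range s ∧ w.1 ∈ Set.range s) := hvw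
    rcases hvw' with h | ⟨hne, ⟨i, hi⟩, ⟨j, hj⟩⟩
    · exact ⟨v.1, hself _, w.1, hself _, h⟩
    · have hij : i ≠ j := fun h => hne (by rw [← hi, ← hj, h])
      rw [← hi, ← hj, hνs, hνs]
      exact hadj i j hij

theorem third : ∀ i : Fin 3, ∃ j k : Fin 3, i ≠ j ∧ i ≠ k ∧ ∀ l, l = i ∨ l = j ∨ l = k := by
  decide

theorem hall3 : ∀ x y z : Fin 3, x ≠ y → x ≠ z → y ≠ z → ∀ i, i = x ∨ i = y ∨ i = z := by
  decide

theorem three : ∀ i : Fin 3, i = 0 ∨ i = 1 ∨ i = 2 := by
  decide

/-- a set closed off `S` sees all three vertices of `S` -/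
theorem sees' {G : SimpleGraph V} (h3 : Conn3 G) {s : Fin 3 → V} (hs : Function.Injective s)
    {C : Set V} (hC : C.Nonempty) (hoff : ∀ j, s j ∉ C) (hcl : Cl G (Set.range s) C) (i : Fin 3) :
    ∃ u ∈ C, G.Adj u (s i) := by
  by_contra hn
  have hn' : ∀ u ∈ C, ¬ G.Adj u (s i) := fun u hu h => hn ⟨u, hu, h⟩
  obtain ⟨j, k, hij, hik, hall⟩ := third i
  rcases h3 (s j) (s k) C hC (hoff j) (hoff k) (fun u hu v huv => by
    rcases hcl u hu v huv with h | ⟨l, hl⟩
    · exact Or.inl h
    · rcases hall l with rfl | rfl | rfl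
      · exact absurd (hl ▸ huv) (hn' u hu)
      · exact Or.inr (Or.inl hl.symm)
      · exact Or.inr (Or.inr hl.symm)) (s i) with h | h | h
  · exact hoff i h
  · exact hij (hs h)
  · exact hik (hs h)

theorem two_of {A : Fin 3 → Prop} (hA : ∃ i j, i ≠ j ∧ A i ∧ A j) :
    (A 0 ∧ A 1) ∨ (A 0 ∧ A 2) ∨ (A 1 ∧ A 2) := by
  obtain ⟨i, j, hij, hi, hj⟩ := hA
  rcases three i with rfl | rfl | rfl <;> rcases three j with rfl | rfl | rfl
  · exact absurd rfl hij
  · exact Or.inl ⟨hi, hj⟩
  · exact Or.inr (Or.inl ⟨hi, hj⟩)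
  · exact Or.inl ⟨hj, hi⟩
  · exact absurd rfl hij
  · exact Or.inr (Or.inr ⟨hi, hj⟩)
  · exact Or.inr (Or.inl ⟨hj, hi⟩)
  · exact Or.inr (Or.inr ⟨hj, hi⟩)
  · exact absurd rfl hij

theorem labels (A B : Fin 3 → Prop) (hA : ∃ i j, i ≠ j ∧ A i ∧ A j)
    (hB : ∃ i j, i ≠ j ∧ B i ∧ B j) (h : ∀ i, A i ∨ B i) :
    ∃ p q r, p ≠ q ∧ p ≠ r ∧ q ≠ r ∧ A p ∧ A r ∧ B q ∧ B r := by
  have key : ∀ p q r : Fin 3, p ≠ q → p ≠ r → q ≠ r → A p → A r → B q → B r →
      ∃ p q r, p ≠ q ∧ p ≠ r ∧ q ≠ r ∧ A p ∧ A r ∧ B q ∧ B r :=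
    fun p q r h1 h2 h3 a b c d => ⟨p, q, r, h1, h2, h3, a, b, c, d⟩
  rcases two_of hA with ⟨a, b⟩ | ⟨a, b⟩ | ⟨a, b⟩ <;>
    rcases two_of hB with ⟨c, d⟩ | ⟨c, d⟩ | ⟨c, d⟩
  · rcases h 2 with e | e
    · exact key 2 1 0 (by decide) (by decide) (by decide) e a d c
    · exact key 1 2 0 (by decide) (by decide) (by decide) b a e c
  · exact key 1 2 0 (by decide) (by decide) (by decide) b a d c
  · exact key 0 2 1 (by decide) (by decide) (by decide) a b d c
  · exact key 2 1 0 (by decide) (by decide) (by decide) b a d c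
  · rcases h 1 with e | e
    · exact key 1 2 0 (by decide) (by decide) (by decide) e a d c
    · exact key 2 1 0 (by decide) (by decide) (by decide) b a e c
  · exact key 0 1 2 (by decide) (by decide) (by decide) a b c d
  · exact key 2 0 1 (by decide) (by decide) (by decide) b a c d
  · exact key 1 0 2 (by decide) (by decide) (by decide) a b c d
  · rcases h 0 with e | e
    · exact key 0 2 1 (by decide) (by decide) (by decide) e a d c
    · exact key 2 0 1 (by decide) (by decide) (by decide) b a e c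

/-- **[X2]** -/
theorem side_tri [Finite V] {G : SimpleGraph V} (h3 : Conn3 G) {s : Fin 3 → V}
    (hs : Function.Injective s) {D C : Set V} (hD : D.Nontrivial) (hoff : ∀ j, s j ∉ D)
    (hcl : Cl G (Set.range s) D) (hCD : Disjoint C D) :
    IsMinor ((G ⊔ cliq (Set.range s)).induce (C ∪ Set.range s)) G := by
  classical
  obtain ⟨p, hp, p', hp', hpp'⟩ := hD
  have hDS : Disjoint D (Set.range s) := by
    rw [Set.disjoint_left]
    rintro _ hv ⟨j, rfl⟩
    exact hoff j hv
  have hcomp : ∀ q ∈ D, compo G (Set.range s) q ⊆ D ∧ q ∈ compo G (Set.range s) q ∧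
      (G.induce (compo G (Set.range s) q)).Connected := by
    intro q hq
    have hqS : q ∉ Set.range s := Set.disjoint_left.1 hDS hq
    have h1 := compo_conn G (Set.range s) q hqS
    have h2 : q ∈ compo G (Set.range s) q := ⟨{q}, rfl, rfl,
      Set.disjoint_left.2 (fun w hw => (show w = q from hw) ▸ hqS), conn_single G q⟩
    exact ⟨sub_of_meet hcl h1.preconnected (compo_off G _ q) h2 hq, h2, h1⟩
  by_cases hcase : ∃ q ∈ D, q ∉ compo G (Set.range s) p
  · -- two components
    obtain ⟨q, hq, hqp⟩ := hcase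
    obtain ⟨a1, a2, a3⟩ := hcomp p hp
    obtain ⟨b1, b2, b3⟩ := hcomp q hq
    have hdis : Disjoint (compo G (Set.range s) p) (compo G (Set.range s) q) := by
      rw [Set.disjoint_left]
      intro v hv hv'
      exact hqp (compo_sub (compo_cl G _ p) hv' hv)
    have sa := sees' h3 hs ⟨p, a2⟩ (fun j h => hoff j (a1 h)) (compo_cl G _ p)
    have sb := sees' h3 hs ⟨q, b2⟩ (fun j h => hoff j (b1 h)) (compo_cl G _ q)
    let W : Fin 3 → Set V := fun i => if i = 0 then compo G (Set.range s) p else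
      if i = 1 then compo G (Set.range s) q else ∅
    have hW0 : W 0 = compo G (Set.range s) p := rfl
    have hW1 : W 1 = compo G (Set.range s) q := rfl
    have hW2 : W 2 = ∅ := rfl
    have hWD : ∀ i, W i ⊆ D := by
      intro i
      fin_cases i
      · exact a1
      · exact b1
      · exact Set.empty_subset _
    refine tri_root hs (W := W) ?_ (fun i => hCD.mono_right (hWD i))
      (fun i j h => hoff j (hWD i h)) ?_ ?_
    · intro i
      fin_cases i
      · obtain ⟨u, hu, h⟩ := sa 0
        exact conn_insert a3 hu h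
      · obtain ⟨u, hu, h⟩ := sb 1
        exact conn_insert b3 hu h
      · show (G.induce ({s 2} ∪ ∅)).Connected
        rw [Set.union_empty]
        exact conn_single G _
    · intro i j hij
      fin_cases i <;> fin_cases j
      · exact absurd rfl hij
      · exact hdis
      · exact Set.disjoint_empty _
      · exact hdis.symm
      · exact absurd rfl hij
      · exact Set.disjoint_empty _
      · exact Set.empty_disjoint _
      · exact Set.empty_disjoint _
      · exact absurd rfl hij
    · have h01 : ∃ u ∈ ({s 0} ∪ W 0 : Set V), ∃ v ∈ ({s 1} ∪ W 1 : Set V), G.Adj u v := by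
        obtain ⟨u, hu, h⟩ := sa 1
        exact ⟨u, Or.inr hu, s 1, Or.inl rfl, h⟩
      have h02 : ∃ u ∈ ({s 0} ∪ W 0 : Set V), ∃ v ∈ ({s 2} ∪ W 2 : Set V), G.Adj u v := by
        obtain ⟨u, hu, h⟩ := sa 2
        exact ⟨u, Or.inr hu, s 2, Or.inl rfl, h⟩
      have h12 : ∃ u ∈ ({s 1} ∪ W 1 : Set V), ∃ v ∈ ({s 2} ∪ W 2 : Set V), G.Adj u v := by
        obtain ⟨u, hu, h⟩ := sb 2
        exact ⟨u, Or.inr hu, s 2, Or.inl rfl, h⟩
      have hsw : ∀ i j, (∃ u ∈ ({s i} ∪ W i : Set V), ∃ v ∈ ({s j} ∪ W j : Set V), G.Adj u v) →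
          ∃ u ∈ ({s j} ∪ W j : Set V), ∃ v ∈ ({s i} ∪ W i : Set V), G.Adj u v := by
        rintro i j ⟨u, hu, v, hv, h⟩
        exact ⟨v, hv, u, hu, h.symm⟩
      intro i j hij
      fin_cases i <;> fin_cases j
      · exact absurd rfl hij
      · exact h01
      · exact h02
      · exact hsw _ _ h01
      · exact absurd rfl hij
      · exact h12
      · exact hsw _ _ h02
      · exact hsw _ _ h12
      · exact absurd rfl hij
  · -- `D` is connected
    have hDc : (G.induce D).Connected := by
      obtain ⟨a1, a2, a3⟩ := hcomp p hp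
      have : D = compo G (Set.range s) p := by
        refine Set.Subset.antisymm (fun q hq => ?_) a1
        by_contra h
        exact hcase ⟨q, hq, h⟩
      rw [this]
      exact a3
    have hX : Cn G D := Cn.of_connected hDc
    have hT : ∀ i, ∃ v ∈ D, G.Adj v (s i) := sees' h3 hs ⟨p, hp⟩ hoff hcl
    rcases tricho (fun i v => G.Adj v (s i)) hX hT with ⟨h, hh, hub⟩ |
      ⟨P, Q, hPQ, hdis, hP, hQ, hPH, hQH⟩ | ⟨U, hU, hUc, hUd, hUa, hUl, -⟩
    · -- HUB
      exfalso
      obtain ⟨v, hv, hvh⟩ : ∃ v ∈ D, v ≠ h := by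
        by_cases e : p = h
        · exact ⟨p', hp', fun e' => hpp' (e.trans e'.symm)⟩
        · exact ⟨p, hp, e⟩
      have hvS : v ∉ insert h (Set.range s) := by
        rintro (e | e)
        · exact hvh e
        · exact Set.disjoint_left.1 hDS hv e
      have k1 := compo_conn G (insert h (Set.range s)) v hvS
      have k2 : v ∈ compo G (insert h (Set.range s)) v := ⟨{v}, rfl, rfl,
        Set.disjoint_left.2 (fun w hw => (show w = v from hw) ▸ hvS), conn_single G v⟩
      have k3 := compo_off G (insert h (Set.range s)) v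
      have k4 := compo_cl G (insert h (Set.range s)) v
      generalize compo G (insert h (Set.range s)) v = K at k1 k2 k3 k4
      have hKs : ∀ j, s j ∉ K := fun j hj => Set.disjoint_left.1 k3 hj (Or.inr ⟨j, rfl⟩)
      have hKh : h ∉ K := fun hj => Set.disjoint_left.1 k3 hj (Or.inl rfl)
      have hKD : K ⊆ D := sub_of_meet hcl k1.preconnected
        (k3.mono_right (Set.subset_insert _ _)) k2 hv
      have hnH := hub K (fun w hw => ⟨hKD hw, fun e => hKh ((show w = h from e) ▸ hw)⟩)
        (Cn.of_connected k1)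
      obtain ⟨i0, hi0⟩ : ∃ i0, ∀ j, (∃ u ∈ K, G.Adj u (s j)) → j = i0 := by
        by_cases he : ∃ i0, ∃ u ∈ K, G.Adj u (s i0)
        · obtain ⟨i0, hi⟩ := he
          refine ⟨i0, fun j hj => ?_⟩
          by_contra hne
          exact hnH ⟨j, i0, hne, hj, hi⟩
        · exact ⟨0, fun j hj => absurd ⟨j, hj⟩ he⟩
      obtain ⟨j, hj⟩ := exists_ne i0
      rcases h3 h (s i0) K ⟨v, k2⟩ hKh (hKs i0) (fun u hu w huw => by
        rcases k4 u hu w huw with e | e | ⟨l, hl⟩
        · exact Or.inl e
        · exact Or.inr (Or.inl e)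
        · have := hi0 l ⟨u, hu, hl ▸ huw⟩
          exact Or.inr (Or.inr (by rw [← hl, this]))) (s j) with e | e | e
      · exact hKs j e
      · exact hoff j (e ▸ hh)
      · exact hj (hs e)
    · -- FAT
      have hPD : P ⊆ D := hPQ ▸ Set.subset_union_left
      have hQD : Q ⊆ D := hPQ ▸ Set.subset_union_right
      obtain ⟨a, haP, b, hb, hab⟩ := hX.2 P hPD hP.1 (by
        rintro rfl
        obtain ⟨w, hw⟩ := hQ.1
        exact Set.disjoint_left.1 hdis (hQD hw) hw)
      have hbQ : b ∈ Q := by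
        have : b ∈ P ∪ Q := hPQ ▸ hb.1
        rcases this with h | h
        · exact absurd h hb.2
        · exact h
      obtain ⟨x, y, z, hxy, hxz, hyz, hPx, hPz, hQy, hQz⟩ := labels
        (fun i => ∃ v ∈ P, G.Adj v (s i)) (fun i => ∃ v ∈ Q, G.Adj v (s i)) hPH hQH (by
          intro i
          obtain ⟨v, hv, h⟩ := hT i
          have : v ∈ P ∪ Q := hPQ ▸ hv
          rcases this with h' | h'
          · exact Or.inl ⟨v, h', h⟩
          · exact Or.inr ⟨v, h', h⟩)
      have hall := hall3 x y z hxy hxz hyz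
      let W : Fin 3 → Set V := fun i => if i = x then P else if i = y then Q else ∅
      have hWx : W x = P := if_pos rfl
      have hWy : W y = Q := (if_neg hxy.symm).trans (if_pos rfl)
      have hWz : W z = ∅ := (if_neg hxz.symm).trans (if_neg hyz.symm)
      have hWD : ∀ i, W i ⊆ D := by
        intro i
        rcases hall i with rfl | rfl | rfl
        · rw [hWx]
          exact hPD
        · rw [hWy]
          exact hQD
        · rw [hWz]
          exact Set.empty_subset _
      have hsw : ∀ i j, (∃ u ∈ ({s i} ∪ W i : Set V), ∃ v ∈ ({s j} ∪ W j : Set V), G.Adj u v) →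
          ∃ u ∈ ({s j} ∪ W j : Set V), ∃ v ∈ ({s i} ∪ W i : Set V), G.Adj u v := by
        rintro i j ⟨u, hu, v, hv, h⟩
        exact ⟨v, hv, u, hu, h.symm⟩
      have exy : ∃ u ∈ ({s x} ∪ W x : Set V), ∃ v ∈ ({s y} ∪ W y : Set V), G.Adj u v :=
        ⟨a, Or.inr (by rw [hWx]; exact haP), b, Or.inr (by rw [hWy]; exact hbQ), hab⟩
      have exz : ∃ u ∈ ({s x} ∪ W x : Set V), ∃ v ∈ ({s z} ∪ W z : Set V), G.Adj u v := by
        obtain ⟨u, hu, h⟩ := hPz
        exact ⟨u, Or.inr (by rw [hWx]; exact hu), s z, Or.inl rfl, h⟩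
      have eyz : ∃ u ∈ ({s y} ∪ W y : Set V), ∃ v ∈ ({s z} ∪ W z : Set V), G.Adj u v := by
        obtain ⟨u, hu, h⟩ := hQz
        exact ⟨u, Or.inr (by rw [hWy]; exact hu), s z, Or.inl rfl, h⟩
      refine tri_root hs (W := W) ?_ (fun i => hCD.mono_right (hWD i))
        (fun i j h => hoff j (hWD i h)) ?_ ?_
      · intro i
        rcases hall i with rfl | rfl | rfl
        · rw [hWx]
          obtain ⟨u, hu, h⟩ := hPx
          exact conn_insert hP.connected hu h
        · rw [hWy]
          obtain ⟨u, hu, h⟩ := hQy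
          exact conn_insert hQ.connected hu h
        · rw [hWz, Set.union_empty]
          exact conn_single G _
      · intro i j hij
        rcases hall i with rfl | rfl | rfl <;> rcases hall j with rfl | rfl | rfl
        · exact absurd rfl hij
        · rw [hWx, hWy]
          exact hdis
        · rw [hWz]
          exact Set.disjoint_empty _
        · rw [hWx, hWy]
          exact hdis.symm
        · exact absurd rfl hij
        · rw [hWz]
          exact Set.disjoint_empty _
        · rw [hWz]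
          exact Set.empty_disjoint _
        · rw [hWz]
          exact Set.empty_disjoint _
        · exact absurd rfl hij
      · intro i j hij
        rcases hall i with rfl | rfl | rfl <;> rcases hall j with rfl | rfl | rfl
        · exact absurd rfl hij
        · exact exy
        · exact exz
        · exact hsw _ _ exy
        · exact absurd rfl hij
        · exact eyz
        · exact hsw _ _ exz
        · exact hsw _ _ eyz
        · exact absurd rfl hij
    · -- TRI
      have hWD : ∀ i, U i ⊆ D := fun i v hv => (hU v).2 ⟨i, hv⟩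
      refine tri_root hs (W := U) ?_ (fun i => hCD.mono_right (hWD i))
        (fun i j h => hoff j (hWD i h)) hUd ?_
      · intro i
        obtain ⟨u, hu, h⟩ := hUl i
        exact conn_insert (hUc i).connected hu h
      · intro i j hij
        obtain ⟨u, hu, v, hv, h⟩ := hUa i j hij
        exact ⟨u, Or.inr hu, v, Or.inr hv, h⟩

theorem range_vec (x y z : V) : Set.range ![x, y, z] = {x, y, z} := by
  ext v
  constructor
  · rintro ⟨i, rfl⟩
    rcases three i with rfl | rfl | rfl
    · exact Or.inl rfl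
    · exact Or.inr (Or.inl rfl)
    · exact Or.inr (Or.inr rfl)
  · rintro (h | h | h)
    · exact ⟨0, (show v = x from h).symm⟩
    · exact ⟨1, (show v = y from h).symm⟩
    · exact ⟨2, (show v = z from h).symm⟩

/-- **[X2]**, three vertices -/
theorem side_three [Finite V] {G : SimpleGraph V} (h3 : Conn3 G) {D K : Set V}
    (hK : K.ncard = 3) (hD : 2 ≤ D.ncard) (hDK : ∀ v ∈ D, v ∉ K) (hcl : Cl G K D) :
    IsMinor ((G ⊔ cliq K).induce Dᶜ) G := by
  obtain ⟨x, y, z, hxy, hxz, hyz, rfl⟩ := Set.ncard_eq_three.1 hK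
  have hs : Function.Injective ![x, y, z] := by
    intro i j h
    rcases three i with rfl | rfl | rfl <;> rcases three j with rfl | rfl | rfl
    · rfl
    · exact absurd (show x = y from h) hxy
    · exact absurd (show x = z from h) hxz
    · exact absurd (show y = x from h) hxy.symm
    · rfl
    · exact absurd (show y = z from h) hyz
    · exact absurd (show z = x from h) hxz.symm
    · exact absurd (show z = y from h) hyz.symm
    · rfl
  have hr := range_vec x y z
  rw [← hr] at hcl hDK ⊢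
  have h := side_tri (C := (D ∪ Set.range ![x, y, z])ᶜ) h3 hs
    (Set.one_lt_ncard_iff_nontrivial.1 (by omega)) (fun j hj => hDK _ hj ⟨j, rfl⟩) hcl
    (Set.disjoint_left.2 fun v hv hv' => hv (Or.inl hv'))
  have e : (D ∪ Set.range ![x, y, z])ᶜ ∪ Set.range ![x, y, z] = Dᶜ := by
    ext v
    constructor
    · rintro (hv | hv) hvD
      · exact hv (Or.inl hvD)
      · exact hDK v hvD hv
    · intro hv
      by_cases hvS : v ∈ Set.range ![x, y, z]
      · exact Or.inr hvS
      · exact Or.inl (fun h' => h'.elim hv hvS)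
  rw [e] at h
  exact h

/-- **[X2]**, at most three vertices -/
theorem side_le [Finite V] {G : SimpleGraph V} (h3 : Conn3 G) {D K : Set V}
    (hK : K.ncard ≤ 3) (hDK : ∀ v ∈ D, v ∉ K) (hcl : Cl G K D) (hD : 2 ≤ D.ncard)
    (hy : ∃ y, y ∉ D ∧ y ∉ K) : IsMinor ((G ⊔ cliq K).induce Dᶜ) G := by
  obtain ⟨y, hyD, hyK⟩ := hy
  obtain ⟨d, hd, d', hd', hdd⟩ := Set.one_lt_ncard_iff_nontrivial.1 (show 1 < D.ncard by omega)
  by_cases h0 : K.ncard = 3
  · exact side_three h3 h0 hD hDK hcl
  exfalso
  rcases Set.eq_empty_or_nonempty K with rfl | ⟨s, hs⟩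
  · rcases h3 d d Dᶜ ⟨y, hyD⟩ (fun h => h hd) (fun h => h hd) (fun u hu v huv => by
      by_cases hv : v ∈ D
      · rcases hcl v hv u huv.symm with h | h
        · exact absurd h hu
        · exact absurd h (Set.notMem_empty _)
      · exact Or.inl hv) d' with h | h | h
    · exact h hd'
    · exact hdd h.symm
    · exact hdd h.symm
  · obtain ⟨t, ht, hst⟩ : ∃ t ∈ K, K ⊆ {s, t} := by
      have h2 : (K \ {s}).ncard ≤ 1 := by
        have := Set.ncard_sdiff_singleton_add_one hs (Set.toFinite K)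
        omega
      rcases Set.ncard_le_one_iff_subsingleton.1 h2 |>.eq_empty_or_singleton with h | ⟨t, h⟩
      · refine ⟨s, hs, fun v hv => ?_⟩
        by_contra hn
        have : v ∈ K \ {s} := ⟨hv, fun e => hn (Or.inl e)⟩
        rw [h] at this
        exact this
      · have ht : t ∈ K \ {s} := h ▸ rfl
        refine ⟨t, ht.1, fun v hv => ?_⟩
        by_cases e : v = s
        · exact Or.inl e
        · have : v ∈ K \ {s} := ⟨hv, e⟩
          rw [h] at this
          exact Or.inr this
    rcases h3 s t D ⟨d, hd⟩ (fun h => hDK s h hs) (fun h => hDK t h ht) (fun u hu v huv => by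
      rcases hcl u hu v huv with h | h
      · exact Or.inl h
      · rcases hst h with e | e
        · exact Or.inr (Or.inl e)
        · exact Or.inr (Or.inr e)) y with h | h | h
    · exact hyD h
    · exact hyK (h ▸ hs)
    · exact hyK (h ▸ ht)

end Vale.Agent.P235.XC.H312
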