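import Vale.Agent.P235.XC.Defs
import Vale.Agent.P235.XC.H312.X2

/-!
# Line XC, row [X2]: the literal `TorsoStmt`
-/

set_option autoImplicit false

namespace Vale.Agent.P235.XC.H312

open SimpleGraph Vale.Agent.P235.H134 Vale.Agent.P235.H56 Vale.Agent.P235.K5.H509
open Vale.Agent.P235.H830 (nbr)

/-- **[X2]** -/
theorem torso : TorsoStmt := by
  intro V _ G D h3 hN hD _
  have h := side_three h3 hN hD (fun v hv hv' => hv'.1 hv) (fun u hu v huv => by
    by_cases hv : v ∈ D
    · exact Or.inl hv
    · exact Or.inr ⟨hv, u, hu, huv⟩)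
  exact h

end Vale.Agent.P235.XC.H312
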